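import Vale.Agent.P146.Lower

open MeasureTheory ProbabilityTheory Filter

namespace Vale.Agent.Results.P146.CriticalDivergence

open Vale.Agent.P146 Vale.Agent.P150 Vale.Agent.P150.Slow

/-- `log Z_n(β)` of the zero field Sherrington–Kirkpatrick model at the disorder `g`
(only the entries with `i < j` are used). -/
noncomputable def logZ (n : ℕ) (β : ℝ) (g : Fin n × Fin n → ℝ) : ℝ :=
  Real.log (∑ σ : Fin n → Bool, Real.exp (β * ((1 / Real.sqrt n) *
    ∑ i, ∑ j, if i < j then g (i, j) * (if σ i then (1 : ℝ) else -1) * (if σ j then (1 : ℝ) else -1)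
      else 0)))

lemma logZ_eq (n : ℕ) (β : ℝ) (g : Fin n × Fin n → ℝ) : logZ n β g = lg (cpl n β) g := by
  simp only [logZ, lg, en_cpl, H, pairs, Finset.sum_filter, Fintype.sum_prod_type, X, spin]
  congr 1
  refine Finset.sum_congr rfl fun σ _ => ?_
  congr 1
  rw [← mul_assoc, mul_one_div]
  congr 1
  exact Finset.sum_congr rfl fun i _ => Finset.sum_congr rfl fun j _ => by split_ifs <;> ring

/-- The fluctuations of the SK free energy are not bounded uniformly as `β` decreases to the
critical point: for every `M`, on a whole interval of `β ≥ 1` the variance eventually exceeds `M`.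
In particular the variance at `β = 1` tends to infinity. -/
theorem result : ∀ M : ℝ, ∃ δ : ℝ, 0 < δ ∧ ∀ β : ℝ, 1 ≤ β → β < 1 + δ →
    ∀ᶠ n : ℕ in atTop,
      M ≤ Var[logZ n β; Measure.pi fun _ : Fin n × Fin n => gaussianReal 0 1] := by
  intro M
  obtain ⟨δ, hδ, h⟩ := variance_large M
  refine ⟨δ, hδ, fun β h1 h2 => ?_⟩
  filter_upwards [h β h1 h2] with n hn
  have e : logZ n β = lg (cpl n β) := funext fun g => logZ_eq n β g
  rw [e, variance_eq_integral (continuous_lg _).measurable.aemeasurable]
  exact hn

end Vale.Agent.Results.P146.CriticalDivergence
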