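import Vale.Agent.P146.Chaos.Poly
import Vale.Agent.P146.Lower

open MeasureTheory ProbabilityTheory Filter

namespace Vale.Agent.Results.P146.PolynomialVariance

open Vale.Agent.P146 Vale.Agent.P150 Vale.Agent.P150.Slow Vale.Agent.P146.Chaos

/-- `log Z_n(β)` of the zero field Sherrington–Kirkpatrick model at the disorder `g`
(only the entries with `i < j` are used). -/
noncomputable def logZ (n : ℕ) (β : ℝ) (g : Fin n × Fin n → ℝ) : ℝ :=
  Real.log (∑ σ : Fin n → Bool, Real.exp (β * ((1 / Real.sqrt n) *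
    ∑ i, ∑ j, if i < j then g (i, j) * (if σ i then (1 : ℝ) else -1) * (if σ j then (1 : ℝ) else -1)
      else 0)))

/-- The Gibbs weight of `σ` at the disorder `g`. -/
noncomputable def gibbs (n : ℕ) (β : ℝ) (g : Fin n × Fin n → ℝ) (σ : Fin n → Bool) : ℝ :=
  Real.exp (β * ((1 / Real.sqrt n) *
    ∑ i, ∑ j, if i < j then g (i, j) * (if σ i then (1 : ℝ) else -1) * (if σ j then (1 : ℝ) else -1)
      else 0)) / ∑ τ : Fin n → Bool, Real.exp (β * ((1 / Real.sqrt n) *
    ∑ i, ∑ j, if i < j then g (i, j) * (if τ i then (1 : ℝ) else -1) * (if τ j then (1 : ℝ) else -1)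
      else 0))

/-- The Gibbs mean of the squared overlap of `σ` at disorder `g` and `τ` at disorder `h`. -/
noncomputable def overlapSq (n : ℕ) (β : ℝ) (g h : Fin n × Fin n → ℝ) : ℝ :=
  ∑ σ : Fin n → Bool, ∑ τ : Fin n → Bool, gibbs n β g σ * gibbs n β h τ *
    ((∑ i, (if σ i then (1 : ℝ) else -1) * (if τ i then (1 : ℝ) else -1)) / n) ^ 2

lemma en_eq (n : ℕ) (β : ℝ) (g : Fin n × Fin n → ℝ) (σ : Fin n → Bool) :
    β * ((1 / Real.sqrt n) * ∑ i, ∑ j, if i < j then g (i, j) * (if σ i then (1 : ℝ) else -1) *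
      (if σ j then (1 : ℝ) else -1) else 0) = en (cpl n β) g σ := by
  simp only [en_cpl, H, pairs, Finset.sum_filter, Fintype.sum_prod_type, X, spin]
  rw [← mul_assoc, mul_one_div]
  congr 1
  exact Finset.sum_congr rfl fun i _ => Finset.sum_congr rfl fun j _ => by split_ifs <;> ring

lemma logZ_eq (n : ℕ) (β : ℝ) (g : Fin n × Fin n → ℝ) : logZ n β g = lg (cpl n β) g := by
  simp only [logZ, lg, en_eq]

lemma overlapSq_eq (n : ℕ) (β : ℝ) (g h : Fin n × Fin n → ℝ) :
    overlapSq n β g h = ovl β g h := by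
  have ha : ∀ g f, avg β g f = ∑ σ, gibbs n β g σ * f σ := fun g f => by
    simp only [avg, av, gibbs, en_eq]
    rw [Finset.sum_div]
    exact Finset.sum_congr rfl fun σ _ => by ring
  simp only [overlapSq, ovl, ip, w, ha, Finset.sum_div, Finset.sum_mul_sum]
  rw [Finset.sum_comm (s := (Finset.univ : Finset (Fin n × Fin n)))]
  refine Finset.sum_congr rfl fun σ _ => ?_
  rw [Finset.sum_comm (s := (Finset.univ : Finset (Fin n × Fin n)))]
  refine Finset.sum_congr rfl fun τ _ => ?_
  rw [sq, Finset.sum_mul_sum, Finset.mul_sum, Fintype.sum_prod_type]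
  refine Finset.sum_congr rfl fun a _ => ?_
  rw [Finset.mul_sum]
  exact Finset.sum_congr rfl fun c _ => by simp only [sp, spin]; ring

/-- At every temperature the variance of the SK free energy is at most a constant times
`n^(1 - 1/1600)`, and the model has disorder chaos already at perturbations of size `n^(-1/1600)`. -/
theorem result : ∀ β : ℝ, 0 < β → ∃ C : ℝ,
    (∀ n : ℕ, Var[logZ n β; Measure.pi fun _ : Fin n × Fin n => gaussianReal 0 1] ≤
      C * (n : ℝ) ^ (1 - 1 / 1600 : ℝ)) ∧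
    ∀ n : ℕ, 0 < n → ∀ u : ℝ, 0 ≤ u → u ≤ 1 - (n : ℝ) ^ (-(1 / 1600 : ℝ)) / 2 →
      ∫ q : (Fin n × Fin n → ℝ) × (Fin n × Fin n → ℝ),
        overlapSq n β q.1 (u • q.1 + Real.sqrt (1 - u ^ 2) • q.2)
        ∂((Measure.pi fun _ : Fin n × Fin n => gaussianReal 0 1).prod
          (Measure.pi fun _ : Fin n × Fin n => gaussianReal 0 1)) ≤
      C * (n : ℝ) ^ (-(1 / 1600 : ℝ)) := by
  intro β hβ
  obtain ⟨C, hC⟩ := var_poly hβ
  obtain ⟨K, -, hK⟩ := chaos_poly hβ
  refine ⟨max C K, fun n => ?_, fun n hn u hu hu1 => ?_⟩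
  · have e : logZ n β = lg (cpl n β) := funext fun g => logZ_eq n β g
    rw [e]
    exact (hC n).trans (mul_le_mul_of_nonneg_right (le_max_left _ _) (by positivity))
  · simp only [overlapSq_eq]
    exact (hK n hn u hu hu1).trans (mul_le_mul_of_nonneg_right (le_max_right _ _) (by positivity))

end Vale.Agent.Results.P146.PolynomialVariance
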